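import Vale.Agent.Lib.P078.Exact

/-!
# P078: the so-paving numbers of diffuse MASAs of `B(H)`, exact values

For every diffuse MASA `A` of `B(H)` and every `0 < ε`: `n_{A ⊆ B(H)}(ε) = ⌈1/ε⌉`.
-/

namespace Vale.Agent.Results.P078.ExactNumber

open Vale.Agent.P078

theorem result {H : Type*} [NormedAddCommGroup H] [InnerProductSpace ℂ H] [CompleteSpace H]
    [Nontrivial H] (A : StarSubalgebra ℂ (H →L[ℂ] H)) (hA : IsMASA (BH H) A) (hd : Diffuse A)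
    (ε : ℝ) (h0 : 0 < ε) : soNumber (BH H) A ε = ((⌈1 / ε⌉₊ : ℕ) : ℕ∞) := by
  have hMA := ma_of_masa hA
  apply le_antisymm
  · have h1 : 0 < 1 / ε := by positivity
    have h2 : 1 ≤ ⌈1 / ε⌉₊ := Nat.one_le_ceil_iff.2 h1
    refine iInf_le_of_le ⌈1 / ε⌉₊ (iInf_le_of_le ⟨h2, fun x _ hx => ?_⟩ le_rfl)
    refine _root_.P078.exact_pav hMA hd hx h2 ?_
    have h3 : (0 : ℝ) < ⌈1 / ε⌉₊ := by exact_mod_cast h2
    rw [div_le_iff₀ h3]
    have h4 : 1 / ε ≤ ⌈1 / ε⌉₊ := Nat.le_ceil _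
    rw [div_le_iff₀ h0] at h4
    linarith
  · refine le_iInf fun r => le_iInf fun hr => ?_
    have h2 : 1 / ε ≤ r := lower hMA hd h0 hr.1 fun x hx => hr.2 x (mem_BH x) hx
    exact_mod_cast Nat.ceil_le.2 h2

end Vale.Agent.Results.P078.ExactNumber
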