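import Vale.Agent.Lib.P078C.Bridge
import Vale.Agent.Lib.P078S.Exact
import Vale.Agent.Lib.P078S.Lower

/-!
# P078: growth of the so-paving numbers of arbitrary MASAs

1. MASAs without normal central functionals: `⌈1/ε⌉ ≤ n(ε) ≤ ⌊1/ε⌋ + 1`, in every type.
2. Reduction: for every MASA `A` of every `M` there is a projection `p ∈ A` such that the normal
   positive `A`-central functionals separate the positive part of `pMp`, vanish on `1 - p`, and
   `n_{A ⊆ M}(ε) ≤ ⌊1/ε⌋ + 1 + n_{Ap ⊆ pMp}(ε)`.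
3. `n(ε) ≥ ⌈1/ε²⌉` as soon as some corner `pMp`, `p ∈ A`, is a II₁ factor; in particular (`p = 1`) for
   all MASAs of II₁ factors.
4. `n(ε) = ⌈1/ε⌉` for diffuse MASAs of `B(H)`.
-/

namespace Vale.Agent.Results.P078.Growth

open Vale.Agent.P078 Filter
open scoped InnerProductSpace Topology

universe u

/-- `ψ` restricts to a normal positive `A`-central functional on `M`; normal means: continuous for
the weak operator topology on the unit ball of `M` -/
structure Central {H : Type u} [NormedAddCommGroup H] [InnerProductSpace ℂ H] [CompleteSpace H]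
    (M : VonNeumannAlgebra H) (A : StarSubalgebra ℂ (H →L[ℂ] H))
    (ψ : (H →L[ℂ] H) →ₗ[ℂ] ℂ) : Prop where
  normal : ∀ (l : Filter (H →L[ℂ] H)) (T₀ : H →L[ℂ] H), (∀ᶠ T in l, T ∈ M ∧ ‖T‖ ≤ 1) →
    (∀ v w : H, Tendsto (fun T : H →L[ℂ] H => ⟪v, T w⟫_ℂ) l (𝓝 ⟪v, T₀ w⟫_ℂ)) →
      Tendsto ψ l (𝓝 (ψ T₀))
  nonneg : ∀ y ∈ M, 0 ≤ (ψ (star y * y)).re ∧ (ψ (star y * y)).im = 0
  central : ∀ a ∈ A, ∀ y ∈ M, ψ (a * y) = ψ (y * a)

private theorem central_iff {H : Type u} [NormedAddCommGroup H] [InnerProductSpace ℂ H]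
    [CompleteSpace H] {M : VonNeumannAlgebra H} {A : StarSubalgebra ℂ (H →L[ℂ] H)}
    {ψ : (H →L[ℂ] H) →ₗ[ℂ] ℂ} : Central M A ψ ↔ IsCentralNormal M A ψ :=
  ⟨fun h => ⟨h.nonneg, h.central, h.normal⟩, fun h => ⟨h.normal, h.nonneg, h.central⟩⟩

/-- 1. a MASA without nonzero normal central functional -/
def Free : Prop :=
  ∀ (H : Type u) [NormedAddCommGroup H] [InnerProductSpace ℂ H] [CompleteSpace H] [Nontrivial H]
    (M : VonNeumannAlgebra H) (A : StarSubalgebra ℂ (H →L[ℂ] H)), IsMASA M A →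
    (∀ ψ, Central M A ψ → ∀ y ∈ M, ψ y = 0) → ∀ ε : ℝ, 0 < ε →
      ((⌈1 / ε⌉₊ : ℕ) : ℕ∞) ≤ soNumber M A ε ∧ soNumber M A ε ≤ ((⌊1 / ε⌋₊ + 1 : ℕ) : ℕ∞)

/-- the normal central functionals vanish on `1 - p` and separate the positive part of `pMp` -/
def Separated {H : Type u} [NormedAddCommGroup H] [InnerProductSpace ℂ H] [CompleteSpace H]
    (M : VonNeumannAlgebra H) (A : StarSubalgebra ℂ (H →L[ℂ] H)) (p : H →L[ℂ] H) : Prop :=
  (∀ ψ, Central M A ψ → ψ (1 - p) = 0) ∧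
    ∀ y ∈ M, (∀ ψ, Central M A ψ → ψ (star y * y) = 0) → y * p = 0

/-- 2. reduction to MASAs with a separating family of normal central functionals -/
def Reduction : Prop :=
  ∀ (H : Type u) [NormedAddCommGroup H] [InnerProductSpace ℂ H] [CompleteSpace H]
    (M : VonNeumannAlgebra H) (A : StarSubalgebra ℂ (H →L[ℂ] H)), IsMASA M A →
    ∃ p ∈ A, IsStarProjection p ∧ Separated M A p ∧ ∀ ε : ℝ, 0 < ε →
      soNumber M A ε ≤ ((⌊1 / ε⌋₊ + 1 : ℕ) : ℕ∞) + soNumberAt M A p ε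

/-- 3. lower bound for MASAs of II₁ factors (`p = 1`), and for MASAs with a II₁ factor corner -/
def LowerBound : Prop :=
  ∀ (H : Type u) [NormedAddCommGroup H] [InnerProductSpace ℂ H] [CompleteSpace H]
    (M : VonNeumannAlgebra H) (A : StarSubalgebra ℂ (H →L[ℂ] H)), IsMASA M A →
    ∀ p ∈ A, IsStarProjection p → IsII1At M p →
      ∀ ε : ℝ, 0 < ε → ((⌈1 / ε ^ 2⌉₊ : ℕ) : ℕ∞) ≤ soNumber M A ε

/-- 4. diffuse MASAs of `B(H)` -/
def DiffuseExact : Prop :=
  ∀ (H : Type u) [NormedAddCommGroup H] [InnerProductSpace ℂ H] [CompleteSpace H] [Nontrivial H]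
    (A : StarSubalgebra ℂ (H →L[ℂ] H)), IsMASA (BH H) A → Diffuse A → ∀ ε : ℝ, 0 < ε →
      soNumber (BH H) A ε = ((⌈1 / ε⌉₊ : ℕ) : ℕ∞)

theorem result : Free.{u} ∧ Reduction.{u} ∧ LowerBound.{u} ∧ DiffuseExact.{u} := by
  refine ⟨?_, ?_, ?_, ?_⟩
  · intro H _ _ _ _ M A hA hN ε h0
    have hMM := mm_of_masa hA
    obtain ⟨U, E, hE, hS⟩ := spread_of_noCentral hMM
      (fun ψ hψ => hN ψ (central_iff.2 hψ))
    constructor
    · refine le_iInf fun r => le_iInf fun hr => ?_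
      have h2 : 1 / ε ≤ r := lower_gen hMM hS h0 hr.1 hr.2
      exact_mod_cast Nat.ceil_le.2 h2
    · refine iInf_le_of_le (⌊1 / ε⌋₊ + 1) (iInf_le_of_le ⟨Nat.le_add_left 1 _, ?_⟩ le_rfl)
      intro x hxM hx
      refine upper_gen hMM hE hS hxM hx h0 ?_
      push_cast
      exact Nat.lt_floor_add_one (1 / ε)
  · intro H _ _ _ M A hA
    have hMM := mm_of_masa hA
    obtain ⟨K, hKc, hK, h1, h2, h3⟩ := decomp hMM
    exact ⟨K.starProjection, hK, isStarProjection_starProjection,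
      ⟨fun ψ hψ => h1 ψ (central_iff.1 hψ),
        fun y hy h => h2 y hy fun ψ hψ => h ψ (central_iff.2 hψ)⟩,
      fun ε hε => (h3 ε hε).trans (add_le_add_right (Bridge_number hMM hK ε) _)⟩
  · intro H _ _ _ M A hA p hpA hp hII ε h0
    have hMM := mm_of_masa hA
    obtain ⟨K, hKc, rfl⟩ := exists_space hp
    refine le_iInf fun r => le_iInf fun hr => ?_
    have h2 : 1 / ε ^ 2 ≤ r :=
      lower_corner hMM hpA (Bridge_II1 (hMM.le _ hpA) hII) h0 hr.1 hr.2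
    exact_mod_cast Nat.ceil_le.2 h2
  · intro H _ _ _ _ A hA hd ε h0
    have hMA := ma_of_masa hA
    apply le_antisymm
    · refine iInf_le_of_le ⌈1 / ε⌉₊ (iInf_le_of_le ⟨?_, ?_⟩ le_rfl)
      · exact Nat.one_le_ceil_iff.2 (by positivity)
      · intro x _ hx
        exact exact_upper hMA hd hx h0 (Nat.le_ceil (1 / ε))
    · refine le_iInf fun r => le_iInf fun hr => ?_
      have h2 : 1 / ε ≤ r := lower hMA hd h0 hr.1 fun x hx => hr.2 x (mem_BH x) hx
      exact_mod_cast Nat.ceil_le.2 h2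

end Vale.Agent.Results.P078.Growth
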