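import Vale.Agent.Lib.P078L.MainL

/-!
# P078: `n(ε) ≥ 1/ε²` for every MASA of every II₁ factor

For every MASA `A` of every II₁ factor `M` (on any Hilbert space, no separability) and every
`ε > 0`, `n_{A ⊆ M}(ε) ≥ ⌈1/ε²⌉`.  So the exponent `2` of the Popa-Vaes conjecture cannot be improved
for any MASA of any II₁ factor.
-/

namespace Vale.Agent.Results.P078.II1Lower

open Vale.Agent.P078

theorem result {H : Type*} [NormedAddCommGroup H] [InnerProductSpace ℂ H] [CompleteSpace H]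
    (M : VonNeumannAlgebra H) (hM : IsII1 M) (A : StarSubalgebra ℂ (H →L[ℂ] H))
    (hA : IsMASA M A) (ε : ℝ) (h0 : 0 < ε) :
    ((⌈1 / ε ^ 2⌉₊ : ℕ) : ℕ∞) ≤ soNumber M A ε := by
  refine le_iInf fun r => le_iInf fun hr => ?_
  have h2 : 1 / ε ^ 2 ≤ r := lower_two hM (mm_of_masa hA) h0 hr.1 hr.2
  exact_mod_cast Nat.ceil_le.2 h2

end Vale.Agent.Results.P078.II1Lower
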