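import Vale.Agent.Lib.P078G.Final

/-!
# P078: so-paving over MASAs without central normal functionals

Let `A` be a MASA of an arbitrary von Neumann algebra `M` such that `M` has no nonzero normal
positive `A`-central functional (for diffuse MASAs of `B(H)` this is the case; in general it means
that no corner `A p ⊆ p M p` is the range of a normal conditional expectation).  Then
`⌈1/ε⌉ ≤ n_{A ⊆ M}(ε) ≤ ⌊1/ε⌋ + 1` for every `ε > 0`.
-/

namespace Vale.Agent.Results.P078.NoCentralNormal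

open Vale.Agent.P078 Filter
open scoped InnerProductSpace Topology

/-- `ψ` is normal on `M`: it is continuous for the weak operator topology on the unit ball of `M`. -/
def NormalOn {H : Type*} [NormedAddCommGroup H] [InnerProductSpace ℂ H] [CompleteSpace H]
    (M : VonNeumannAlgebra H) (ψ : (H →L[ℂ] H) →ₗ[ℂ] ℂ) : Prop :=
  ∀ (l : Filter (H →L[ℂ] H)) (T₀ : H →L[ℂ] H), (∀ᶠ T in l, T ∈ M ∧ ‖T‖ ≤ 1) →
    (∀ v w : H, Tendsto (fun T : H →L[ℂ] H => ⟪v, T w⟫_ℂ) l (𝓝 ⟪v, T₀ w⟫_ℂ)) →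
      Tendsto ψ l (𝓝 (ψ T₀))

/-- `M` has no nonzero normal positive `A`-central functional. -/
def NoCentral {H : Type*} [NormedAddCommGroup H] [InnerProductSpace ℂ H] [CompleteSpace H]
    (M : VonNeumannAlgebra H) (A : StarSubalgebra ℂ (H →L[ℂ] H)) : Prop :=
  ∀ ψ : (H →L[ℂ] H) →ₗ[ℂ] ℂ, NormalOn M ψ →
    (∀ y ∈ M, 0 ≤ (ψ (star y * y)).re ∧ (ψ (star y * y)).im = 0) →
    (∀ a ∈ A, ∀ y ∈ M, ψ (a * y) = ψ (y * a)) → ∀ y ∈ M, ψ y = 0

theorem result {H : Type*} [NormedAddCommGroup H] [InnerProductSpace ℂ H] [CompleteSpace H]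
    [Nontrivial H] (M : VonNeumannAlgebra H) (A : StarSubalgebra ℂ (H →L[ℂ] H))
    (hA : IsMASA M A) (hN : NoCentral M A) (ε : ℝ) (h0 : 0 < ε) :
    ((⌈1 / ε⌉₊ : ℕ) : ℕ∞) ≤ soNumber M A ε ∧
      soNumber M A ε ≤ ((⌊1 / ε⌋₊ + 1 : ℕ) : ℕ∞) := by
  have hMM := mm_of_masa hA
  obtain ⟨U, E, hE, hS⟩ := spread_of_noCentral hMM
    (fun ψ hψ => hN ψ hψ.normal hψ.nonneg hψ.central)
  constructor
  · refine le_iInf fun r => le_iInf fun hr => ?_
    have h2 : 1 / ε ≤ r := lower_gen hMM hS h0 hr.1 hr.2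
    exact_mod_cast Nat.ceil_le.2 h2
  · refine iInf_le_of_le (⌊1 / ε⌋₊ + 1) (iInf_le_of_le ⟨Nat.le_add_left 1 _, ?_⟩ le_rfl)
    intro x hxM hx
    refine upper_gen hMM hE hS hxM hx h0 ?_
    push_cast
    exact Nat.lt_floor_add_one (1 / ε)

end Vale.Agent.Results.P078.NoCentralNormal
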